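import Crest.Agent.N76.II.Dens
import Crest.Agent.N76.II.Net

-- ▼ part N76/II/St4/Scal
section

/-! # Row 76 (S0101), leaf `Stop`: scalar lemmas and the tube seminorm (helper6). -/

set_option autoImplicit false

open MeasureTheory Set Metric
open scoped ENNReal RealInnerProductSpace

namespace Crest.Agent.N76.II.St4

open Crest.Agent.N76.Red (V ph)
open Crest.Agent.N76.G

/-- telescoping bound for a geometric sequence -/
theorem tele {l y : ℝ} (hl : 1 < l) (hy : 0 < y) (n : ℕ) :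
    ∑ j ∈ Finset.range n, y * l ^ j / (1 + y * l ^ j) ^ 2 ≤ l / (l - 1) := by
  have h0 : 0 < l - 1 := by linarith
  have key : ∀ n : ℕ, ∑ j ∈ Finset.range n, y * l ^ j / (1 + y * l ^ j) ^ 2 ≤
      l / (l - 1) * (y * l ^ n / (1 + y * l ^ n)) := by
    intro n
    induction n with
    | zero => simp only [Finset.range_zero, Finset.sum_empty]; positivity
    | succ n ih =>
      rw [Finset.sum_range_succ, pow_succ l n, ← mul_assoc]
      have hz : 0 < y * l ^ n := by positivity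
      generalize y * l ^ n = z at hz ih
      have h1 : z / (1 + z) ^ 2 ≤ l / (l - 1) * (z * l / (1 + z * l) - z / (1 + z)) := by
        have e : l / (l - 1) * (z * l / (1 + z * l) - z / (1 + z)) =
            z / (1 + z) * (l / (1 + z * l)) := by
          field_simp; ring
        rw [e, sq, ← div_div, div_eq_mul_one_div (z / (1 + z))]
        refine mul_le_mul_of_nonneg_left ?_ (by positivity)
        rw [div_le_div_iff₀ (by positivity) (by positivity)]
        nlinarith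
      linarith [mul_sub (l / (l - 1)) (z * l / (1 + z * l)) (z / (1 + z))]
  refine (key n).trans (mul_le_of_le_one_right (by positivity) ?_)
  rw [div_le_one (by positivity)]
  linarith

/-- weight of a heavy tile -/
noncomputable def hh (d : ℕ) (y : ℝ) : ℝ := (2 / (1 + y ^ 4)) ^ d / y

/-- weight of a top tile -/
noncomputable def TT (y : ℝ) : ℝ := (3 * y ^ 4 / (1 + y ^ 4)) ^ 2

theorem hh_pos (d : ℕ) {y : ℝ} (hy : 0 < y) : 0 < hh d y := by unfold hh; positivity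

theorem TT_nonneg (y : ℝ) : 0 ≤ TT y := sq_nonneg _

theorem hh_le (d : ℕ) {y y' e : ℝ} (hy : 0 < y) (hy' : 0 < y') (he : 1 ≤ e) (h : y' ≤ e * y) :
    hh d y ≤ e ^ (4 * d + 8) * hh d y' := by
  have h1 : 2 / (1 + y ^ 4) ≤ e ^ 4 * (2 / (1 + y' ^ 4)) := by
    rw [← mul_div_assoc, div_le_div_iff₀ (by positivity) (by positivity)]
    have : y' ^ 4 ≤ e ^ 4 * y ^ 4 := by rw [← mul_pow]; gcongr
    have : 1 ≤ e ^ 4 := one_le_pow₀ he
    nlinarith
  have h2 : 1 / y ≤ e ^ 8 * (1 / y') := by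
    rw [← mul_div_assoc, div_le_div_iff₀ hy hy']
    have : e ≤ e ^ 8 := le_self_pow₀ he (by norm_num)
    nlinarith
  unfold hh
  rw [div_eq_mul_one_div _ y, div_eq_mul_one_div _ y', pow_add, pow_mul, mul_mul_mul_comm,
    ← mul_pow]
  gcongr

theorem TT_le (d : ℕ) {y y' e : ℝ} (hy : 0 < y) (hy' : 0 < y') (he : 1 ≤ e) (h : y ≤ e * y') :
    TT y ≤ e ^ (4 * d + 8) * TT y' := by
  have h1 : 3 * y ^ 4 / (1 + y ^ 4) ≤ e ^ 4 * (3 * y' ^ 4 / (1 + y' ^ 4)) := by
    rw [← mul_div_assoc, div_le_div_iff₀ (by positivity) (by positivity)]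
    have h3 : y ^ 4 ≤ e ^ 4 * y' ^ 4 := by rw [← mul_pow]; gcongr
    have h4 : 1 ≤ e ^ 4 := one_le_pow₀ he
    have h5 : 0 < y ^ 4 := by positivity
    have h6 : 0 < y' ^ 4 := by positivity
    have : y ^ 4 * y' ^ 4 ≤ e ^ 4 * (y ^ 4 * y' ^ 4) := le_mul_of_one_le_left (by positivity) h4
    nlinarith
  unfold TT
  calc _ ≤ (e ^ 4 * (3 * y' ^ 4 / (1 + y' ^ 4))) ^ 2 := by gcongr
    _ = e ^ 8 * (3 * y' ^ 4 / (1 + y' ^ 4)) ^ 2 := by ring
    _ ≤ _ := mul_le_mul_of_nonneg_right (pow_le_pow_right₀ he (by omega)) (sq_nonneg _)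

theorem one_le_TT {y : ℝ} (h : 1 / 2 ≤ y ^ 4) : 1 ≤ TT y := by
  refine one_le_pow₀ ?_
  rw [le_div_iff₀ (by positivity)]
  linarith

/-- below the stopping scale -/
theorem light (d : ℕ) {y m : ℝ} (hy : 0 < y) (hm : 0 ≤ m) (h : m * hh d y + TT y < 1) :
    m ≤ 4 * (y / (1 + y) ^ 2) := by
  have h0 : 0 ≤ m * hh d y := mul_nonneg hm (hh_pos d hy).le
  have h1 : y ^ 4 < 1 / 2 := by
    by_contra hc
    linarith [one_le_TT (not_lt.1 hc)]
  have h2 : y ≤ 1 := by
    by_contra hc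
    linarith [one_le_pow₀ (n := 4) (not_le.1 hc).le]
  have h3 : 1 / y ≤ hh d y := by
    refine div_le_div_of_nonneg_right (one_le_pow₀ ?_) hy.le
    rw [le_div_iff₀ (by positivity)]
    linarith
  have h4 : m ≤ y := by
    have : m * (1 / y) ≤ 1 := by nlinarith [TT_nonneg y]
    rwa [mul_one_div, div_le_one hy] at this
  refine h4.trans ?_
  rw [← mul_div_assoc, le_div_iff₀ (by positivity)]
  have : (1 + y) ^ 2 ≤ 4 := by nlinarith
  nlinarith

theorem sq_le_three (y : ℝ) : (1 + y) ^ 2 ≤ 3 * (1 + y ^ 4) := by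
  nlinarith [sq_nonneg (y - 1), sq_nonneg (y ^ 2 - 1), sq_nonneg (y ^ 2)]

theorem pow_hh_le {d : ℕ} (hd : 1 ≤ d) {y : ℝ} (hy : 0 < y) :
    (y ^ 2) ^ d * hh d y ≤ 6 * (y / (1 + y) ^ 2) := by
  have h1 : y ^ 2 * (2 / (1 + y ^ 4)) ≤ 1 := by
    rw [← mul_div_assoc, div_le_one (by positivity)]
    nlinarith [sq_nonneg (y ^ 2 - 1)]
  unfold hh
  rw [← mul_div_assoc, ← mul_pow, div_le_iff₀ hy]
  refine (pow_le_of_le_one (by positivity) h1 (by omega)).trans ?_
  rw [← mul_div_assoc, ← mul_div_assoc, div_mul_eq_mul_div,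
    div_le_div_iff₀ (by positivity) (by positivity)]
  nlinarith [mul_le_mul_of_nonneg_left (sq_le_three y) (sq_nonneg y)]

theorem TT_div_le {y : ℝ} (hy : 0 < y) : TT y ≤ y ^ 4 * (27 * (y / (1 + y) ^ 2)) := by
  have h1 : y ^ 3 ≤ 1 + y ^ 4 := by
    rcases le_total y 1 with h | h
    · linarith [pow_le_one₀ (n := 3) hy.le h, pow_pos hy 4]
    · linarith [pow_le_pow_right₀ h (show 3 ≤ 4 by norm_num)]
  have h2 : y ^ 3 * (1 + y) ^ 2 ≤ (1 + y ^ 4) * (3 * (1 + y ^ 4)) :=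
    mul_le_mul h1 (sq_le_three y) (by positivity) (by positivity)
  unfold TT
  rw [div_pow, ← mul_div_assoc, ← mul_div_assoc, div_le_div_iff₀ (by positivity) (by positivity)]
  nlinarith [mul_le_mul_of_nonneg_left h2 (pow_pos hy 5).le]

variable {d : ℕ}

/-- the tube seminorm -/
noncomputable def nm (K : ℝ) (ζ : V d) (u u' : V d × ℝ) : ℝ :=
  K * ‖(lin u ζ - lin u' ζ).1‖ + |u.2 - u'.2|

theorem lin_sub (ζ : V d) (u u' : V d × ℝ) :
    lin u ζ - lin u' ζ = (u.1 - u'.1 + (2 * (u.2 - u'.2)) • ζ, 0) := by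
  simp only [lin, Prod.mk_sub_mk, sub_self, mul_sub, sub_smul]
  congr 1; abel

theorem nm_nonneg {K : ℝ} (hK : 0 ≤ K) (ζ : V d) (u u' : V d × ℝ) : 0 ≤ nm K ζ u u' := by
  unfold nm; positivity

theorem nm_comm (K : ℝ) (ζ : V d) (u u' : V d × ℝ) : nm K ζ u u' = nm K ζ u' u := by
  unfold nm
  rw [abs_sub_comm, Prod.fst_sub, Prod.fst_sub, norm_sub_rev]

theorem nm_tri {K : ℝ} (hK : 0 ≤ K) (ζ : V d) (u u' q : V d × ℝ) :
    nm K ζ u q ≤ nm K ζ u u' + nm K ζ u' q := by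
  unfold nm
  simp only [Prod.fst_sub]
  have h1 := mul_le_mul_of_nonneg_left
    (norm_sub_le_norm_sub_add_norm_sub (lin u ζ).1 (lin u' ζ).1 (lin q ζ).1) hK
  linarith [abs_sub_le u.2 u'.2 q.2]

theorem continuous_nm (K : ℝ) (ζ : V d) (q : V d × ℝ) : Continuous fun u => nm K ζ u q := by
  unfold nm lin; fun_prop

theorem norm_shear_le {ζ : V d} (hζ : ‖ζ‖ ≤ 4) (t : ℝ) : ‖(2 * t) • ζ‖ ≤ 8 * |t| := by
  rw [norm_smul, Real.norm_eq_abs, abs_mul, abs_two]
  nlinarith [abs_nonneg t]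

theorem dist_le_nm {K : ℝ} (hK : 1 ≤ K) {ζ : V d} (hζ : ‖ζ‖ ≤ 4) (u u' : V d × ℝ) :
    dist u u' ≤ 8 * nm K ζ u u' := by
  unfold nm
  rw [lin_sub, Prod.dist_eq, dist_eq_norm, Real.dist_eq]
  have h1 := norm_shear_le hζ (u.2 - u'.2)
  have h2 := norm_sub_le (u.1 - u'.1 + (2 * (u.2 - u'.2)) • ζ) ((2 * (u.2 - u'.2)) • ζ)
  rw [add_sub_cancel_right] at h2
  have h3 := norm_nonneg (u.1 - u'.1 + (2 * (u.2 - u'.2)) • ζ)
  have h4 := le_mul_of_one_le_left h3 hK
  refine max_le ?_ ?_ <;> simp only <;> linarith [abs_nonneg (u.2 - u'.2)]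

theorem nm_le_dist {K : ℝ} (hK : 1 ≤ K) {ζ : V d} (hζ : ‖ζ‖ ≤ 4) (u u' : V d × ℝ) :
    nm K ζ u u' ≤ 10 * K * dist u u' := by
  unfold nm
  rw [lin_sub]
  have h1 := norm_shear_le hζ (u.2 - u'.2)
  have h2 := norm_add_le (u.1 - u'.1) ((2 * (u.2 - u'.2)) • ζ)
  have h3 : ‖u.1 - u'.1‖ ≤ dist u u' := by rw [← dist_eq_norm, Prod.dist_eq]; exact le_max_left _ _
  have h4 : |u.2 - u'.2| ≤ dist u u' := by rw [← Real.dist_eq, Prod.dist_eq]; exact le_max_right _ _
  have h5 := le_mul_of_one_le_left (dist_nonneg (x := u) (y := u')) hK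
  have h6 : K * ‖u.1 - u'.1 + (2 * (u.2 - u'.2)) • ζ‖ ≤ K * (9 * dist u u') :=
    mul_le_mul_of_nonneg_left (by linarith) (by linarith)
  simp only
  linarith

/-- the overlap in the time shell `σ⁴ < |dt| ≤ 2 σ⁴` -/
theorem Gs_le {K σ : ℝ} (hK : 0 < K) (hσ : 0 < σ) (hKσ : K ^ 2 ≤ σ ^ 4) (ζ : V d)
    (u u' : V d × ℝ) (h1 : σ ^ 4 ≤ |u.2 - u'.2|) (h2 : |u.2 - u'.2| ≤ 2 * σ ^ 4) :
    Gs K (Real.pi / 4) u u' ζ ≤
      Real.exp 2 * (Real.exp (-(nm K ζ u u' / (2 * σ ^ 4))) * (K / σ ^ 2) ^ d) := by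
  have hs : 0 < σ ^ 4 := by positivity
  have e1 : (σ ^ 4) ^ 2 ≤ (u.2 - u'.2) ^ 2 := by rw [← sq_abs (u.2 - u'.2)]; gcongr
  have e2 : (u.2 - u'.2) ^ 2 ≤ (2 * σ ^ 4) ^ 2 := by rw [← sq_abs (u.2 - u'.2)]; gcongr
  have hsig : 0 < sig K u.2 K u'.2 := by unfold sig; positivity
  have hp : pre d K u.2 K u'.2 ≤ (K / σ ^ 2) ^ d := by
    have : 4 * K ^ 2 * K ^ 2 / sig K u.2 K u'.2 ≤ (K / σ ^ 2) ^ 4 := by
      rw [div_pow, div_le_div_iff₀ hsig (by positivity), sig]
      have := mul_le_mul_of_nonneg_left e1 (pow_pos hK 4).le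
      nlinarith [pow_pos hK 8]
    refine (Real.rpow_le_rpow (by positivity) this (by positivity)).trans_eq ?_
    rw [← Real.rpow_natCast _ 4, ← Real.rpow_mul (by positivity), ← Real.rpow_natCast _ d]
    congr 1; push_cast; ring
  set D := ‖(lin u ζ - lin u' ζ).1‖ with hD
  have hD0 : 0 ≤ D := norm_nonneg _
  have hq : (K * D / σ ^ 4) ^ 2 / 10 ≤ Qf K u.2 K u'.2 (lin u ζ - lin u' ζ) := by
    have e : Qf K u.2 K u'.2 (lin u ζ - lin u' ζ) = 2 * (K * D) ^ 2 / sig K u.2 K u'.2 := by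
      rw [hD, Qf, lin_sub]
      simp only [pos, smul_zero, sub_zero, norm_zero]
      ring
    rw [e, div_pow, div_div, div_le_div_iff₀ (by positivity) hsig, sig]
    have e3 : (K ^ 2 + K ^ 2) ^ 2 ≤ (2 * σ ^ 4) ^ 2 := by gcongr; linarith
    have := mul_le_mul_of_nonneg_left (add_le_add e3 (mul_le_mul_of_nonneg_left e2
      (by norm_num : (0 : ℝ) ≤ 4))) (sq_nonneg (K * D))
    nlinarith
  rw [Gs, ← mul_assoc, mul_comm, ← Real.exp_add]
  refine mul_le_mul ?_ hp (Real.rpow_nonneg (by positivity) _) (Real.exp_pos _).le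
  rw [Real.exp_le_exp]
  have e4 : nm K ζ u u' / (2 * σ ^ 4) ≤ K * D / σ ^ 4 / 2 + 1 := by
    rw [nm, ← hD, div_le_iff₀ (by positivity)]
    have : K * D / σ ^ 4 / 2 * (2 * σ ^ 4) = K * D := by field_simp
    linarith [add_mul (K * D / σ ^ 4 / 2) 1 (2 * σ ^ 4)]
  generalize K * D / σ ^ 4 = x at hq e4
  have := mul_le_mul Real.pi_gt_three.le hq (by positivity) Real.pi_pos.le
  nlinarith [sq_nonneg (x - 4)]

end Crest.Agent.N76.II.St4
end

-- ▼ part N76/II/St4/Avg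
section

/-! # Row 76 (S0101), leaf `Stop`: tile weights and their averages (helper6). -/

set_option autoImplicit false

open MeasureTheory Set Metric
open scoped ENNReal RealInnerProductSpace

namespace Crest.Agent.N76.II.St4

open Crest.Agent.N76.Red (V ph)
open Crest.Agent.N76.G

variable {d : ℕ} {ι : Type*}

/-- `∫ exp (-|x|) dx · ∫ exp (-|t|) dt` -/
noncomputable def c0 (d : ℕ) : ℝ := (∫ x : V d, Real.exp (-‖x‖)) * ∫ x : ℝ, Real.exp (-‖x‖)

theorem c0_nonneg (d : ℕ) : 0 ≤ c0 d :=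
  mul_nonneg (integral_nonneg fun _ => (Real.exp_pos _).le)
    (integral_nonneg fun _ => (Real.exp_pos _).le)

theorem integral_nm {K l : ℝ} (hK : 1 ≤ K) (hl : 0 < l) {ζ : V d} (hζ : ‖ζ‖ ≤ 4) (q : V d × ℝ) :
    Integrable (fun u => Real.exp (-(nm K ζ u q / l))) ∧
    ∫ u, Real.exp (-(nm K ζ u q / l)) = (l / K) ^ d * l * c0 d := by
  have hK0 : 0 < K := by linarith
  have hi : Integrable (fun u => Real.exp (-(nm K ζ u q / l))) := by
    refine (B.integral_exp_neg_dist volume q (l := 8 * l) (by positivity)).1.mono'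
      ((continuous_nm K ζ q).div_const l).neg.rexp.aestronglyMeasurable (.of_forall fun u => ?_)
    rw [Real.norm_eq_abs, abs_of_pos (Real.exp_pos _), Real.exp_le_exp, neg_le_neg_iff,
      div_le_div_iff₀ (by positivity) hl]
    nlinarith [dist_le_nm hK hζ u q]
  refine ⟨hi, ?_⟩
  have e : ∀ (x : V d) (t : ℝ), Real.exp (-(nm K ζ (x, t) q / l)) =
      Real.exp (-(dist x (q.1 - (2 * (t - q.2)) • ζ) / (l / K))) * Real.exp (-(dist t q.2 / l)) := by
    intro x t
    rw [← Real.exp_add, nm, lin_sub, dist_eq_norm, Real.dist_eq, sub_sub_eq_add_sub,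
      add_sub_right_comm]
    congr 1
    field_simp
    ring
  rw [Measure.volume_eq_prod] at hi ⊢
  rw [integral_prod_symm _ hi]
  simp only [e, integral_mul_const,
    (B.integral_exp_neg_dist (volume : Measure (V d)) _ (div_pos hl hK0)).2]
  rw [integral_const_mul, (B.integral_exp_neg_dist (volume : Measure ℝ) _ hl).2, c0]
  simp only [finrank_euclideanSpace, Fintype.card_fin, Module.finrank_self, pow_one]
  ring

theorem setIntegral_nm_le {K s r : ℝ} (hK : 1 ≤ K) (hs : 0 < s) (hsr : 32 * s ≤ r) {ζ : V d}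
    (hζ : ‖ζ‖ ≤ 4) (u q : V d × ℝ) :
    ∫ u' in closedBall u r, Real.exp (-(nm K ζ u' q / (2 * s))) ≤
      Real.exp 1 * Real.exp (-(dist u q / r)) * ((4 * s / K) ^ d * (4 * s) * c0 d) := by
  have hr : 0 < r := by linarith
  obtain ⟨i1, i2⟩ := integral_nm hK (l := 4 * s) (by positivity) hζ q
  calc _ ≤ ∫ u' in closedBall u r,
        Real.exp 1 * Real.exp (-(dist u q / r)) * Real.exp (-(nm K ζ u' q / (4 * s))) := by
        refine setIntegral_mono_on (integral_nm hK (by positivity) hζ q).1.integrableOn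
          (i1.const_mul _).integrableOn measurableSet_closedBall fun u' hu' => ?_
        rw [← Real.exp_add, ← Real.exp_add, Real.exp_le_exp]
        have h1 : dist u q / r ≤ 1 + dist u' q / r := by
          rw [div_le_iff₀ hr, add_mul, div_mul_cancel₀ _ hr.ne']
          linarith [dist_triangle u u' q, mem_closedBall'.1 hu']
        have h2 : dist u' q / r ≤ nm K ζ u' q / (4 * s) := by
          rw [div_le_div_iff₀ hr (by positivity)]
          nlinarith [dist_le_nm hK hζ u' q, nm_nonneg (by linarith : (0 : ℝ) ≤ K) ζ u' q]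
        have h3 : nm K ζ u' q / (2 * s) = 2 * (nm K ζ u' q / (4 * s)) := by field_simp; ring
        linarith
    _ ≤ ∫ u', Real.exp 1 * Real.exp (-(dist u q / r)) * Real.exp (-(nm K ζ u' q / (4 * s))) :=
        setIntegral_le_integral (i1.const_mul _) (.of_forall fun _ => by positivity)
    _ = _ := by rw [integral_const_mul, i2]

/-- centres of heavy separated balls are counted by the density -/
theorem count_le {X : Finset ι} {p : ι → V d × ℝ} {w : ι → ℝ} (hw : ∀ z ∈ X, 0 ≤ w z)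
    {K N r : ℝ} (hK : 0 < K) (hKr : K ≤ r) {𝒞 : Finset ι}
    (hN : ∀ c ∈ 𝒞, N ≤ ms X p w (closedBall (p c) K))
    (hsep : ∀ c ∈ 𝒞, ∀ c' ∈ 𝒞, c ≠ c' → K / 2 ≤ dist (p c) (p c')) (u : V d × ℝ) :
    N * ∑ c ∈ 𝒞, Real.exp (-(dist u (p c) / r)) ≤
      Real.exp 1 * 5 ^ (d + 1) * (r ^ (d + 1) * dens X p w r u) := by
  classical
  have hr : 0 < r := hK.trans_le hKr
  rw [dens, mul_div_cancel₀ _ (by positivity), Finset.mul_sum, Finset.mul_sum]
  calc _ ≤ ∑ c ∈ 𝒞, ∑ z ∈ X, if p z ∈ closedBall (p c) K then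
        Real.exp 1 * (w z * Real.exp (-(dist u (p z) / r))) else 0 := by
        refine Finset.sum_le_sum fun c hc => ?_
        refine (mul_le_mul_of_nonneg_right (hN c hc) (Real.exp_pos _).le).trans ?_
        rw [ms, Finset.sum_mul, Finset.sum_filter]
        refine Finset.sum_le_sum fun z hz => ?_
        split_ifs with h
        · rw [mul_left_comm]
          refine mul_le_mul_of_nonneg_left ?_ (hw z hz)
          rw [← Real.exp_add, Real.exp_le_exp]
          have : dist u (p z) / r ≤ 1 + dist u (p c) / r := by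
            rw [div_le_iff₀ hr, add_mul, div_mul_cancel₀ _ hr.ne']
            linarith [dist_triangle u (p c) (p z), mem_closedBall'.1 h]
          linarith
        · exact le_rfl
    _ ≤ _ := by
        rw [Finset.sum_comm]
        refine Finset.sum_le_sum fun z hz => ?_
        rw [← Finset.sum_filter, Finset.sum_const, nsmul_eq_mul]
        have h5 := card_le_of_sep_st (𝒞.filter fun c => p z ∈ closedBall (p c) K) p (p z) hK.le
          (half_pos hK) (fun c hc => mem_closedBall'.1 (Finset.mem_filter.1 hc).2)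
          fun c hc c' hc' => hsep c (Finset.mem_filter.1 hc).1 c' (Finset.mem_filter.1 hc').1
        rw [show 2 * K / (K / 2) + 1 = 5 by field_simp; norm_num] at h5
        have := hw z hz
        refine (mul_le_mul_of_nonneg_right h5 (by positivity)).trans_eq ?_
        ring

/-- smoothed number of centres in the tube of length `σ⁴` -/
noncomputable def mt (K : ℝ) (ζ : V d) (𝒞 : Finset ι) (p : ι → V d × ℝ) (σ : ℝ) (u : V d × ℝ) : ℝ :=
  ∑ c ∈ 𝒞, Real.exp (-(nm K ζ u (p c) / (2 * σ ^ 4)))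

/-- the (untruncated) tile weight at scale `σ⁴` -/
noncomputable def FF (K : ℝ) (ζ : V d) (𝒞 : Finset ι) (p : ι → V d × ℝ) (γ : V d × ℝ → ℝ) (σ : ℝ)
    (u : V d × ℝ) : ℝ :=
  mt K ζ 𝒞 p σ u * (K / σ ^ 2) ^ d * hh d (σ * γ u) + TT (σ * γ u)

variable {K σ r : ℝ} {ζ : V d} {𝒞 : Finset ι} {p : ι → V d × ℝ} {γ : V d × ℝ → ℝ}

theorem mt_nonneg (u : V d × ℝ) : 0 ≤ mt K ζ 𝒞 p σ u :=
  Finset.sum_nonneg fun _ _ => (Real.exp_pos _).le

theorem continuous_mt : Continuous (mt K ζ 𝒞 p σ) :=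
  continuous_finsetSum _ fun c _ => ((continuous_nm K ζ (p c)).div_const _).neg.rexp

theorem mt_lip (hK : 0 ≤ K) (hσ : 0 < σ) (u u' : V d × ℝ) :
    mt K ζ 𝒞 p σ u ≤ Real.exp (nm K ζ u u' / (2 * σ ^ 4)) * mt K ζ 𝒞 p σ u' := by
  unfold mt
  rw [Finset.mul_sum]
  refine Finset.sum_le_sum fun c _ => ?_
  rw [← Real.exp_add, Real.exp_le_exp, ← sub_eq_add_neg, ← sub_div, ← neg_div]
  gcongr
  linarith [nm_tri hK ζ u' u (p c), nm_comm K ζ u u']

theorem FF_nonneg (hK : 0 ≤ K) (hσ : 0 < σ) (hγ : ∀ u, 0 < γ u) (u : V d × ℝ) :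
    0 ≤ FF K ζ 𝒞 p γ σ u :=
  add_nonneg (mul_nonneg (mul_nonneg (mt_nonneg u) (by positivity))
    (hh_pos d (mul_pos hσ (hγ u))).le) (TT_nonneg _)

theorem continuous_FF (hσ : 0 < σ) (hγ : ∀ u, 0 < γ u) (hc : Continuous γ) :
    Continuous (FF K ζ 𝒞 p γ σ) := by
  have h1 : Continuous fun u => σ * γ u := continuous_const.mul hc
  have h2 : ∀ u, 1 + (σ * γ u) ^ 4 ≠ 0 := fun u => by positivity
  have h3 : Continuous fun u => 1 + (σ * γ u) ^ 4 := continuous_const.add (h1.pow 4)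
  exact ((continuous_mt.mul continuous_const).mul (((continuous_const.div h3 h2).pow d).div h1
    fun u => (mul_pos hσ (hγ u)).ne')).add
    (((continuous_const.mul (h1.pow 4)).div h3 h2).pow 2)

theorem FF_lip (hK : 0 ≤ K) (hσ : 0 < σ) (hr : 0 < r) (hγ : ∀ u, 0 < γ u)
    (hl : ∀ u u', γ u ≤ Real.exp (dist u u' / r) * γ u') (u u' : V d × ℝ) :
    FF K ζ 𝒞 p γ σ u ≤ Real.exp (nm K ζ u u' / (2 * σ ^ 4) + (4 * d + 8) * (dist u u' / r)) *
      FF K ζ 𝒞 p γ σ u' := by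
  have he : 1 ≤ Real.exp (dist u u' / r) := Real.one_le_exp (by positivity)
  have h1 := hh_le d (mul_pos hσ (hγ u)) (mul_pos hσ (hγ u')) he (by
    rw [mul_left_comm, dist_comm]; exact mul_le_mul_of_nonneg_left (hl u' u) hσ.le)
  have h2 := TT_le d (mul_pos hσ (hγ u)) (mul_pos hσ (hγ u')) he (by
    rw [mul_left_comm]; exact mul_le_mul_of_nonneg_left (hl u u') hσ.le)
  have h3 := mt_lip (ζ := ζ) (𝒞 := 𝒞) (p := p) hK hσ u u'
  have h4 : 1 ≤ Real.exp (nm K ζ u u' / (2 * σ ^ 4)) :=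
    Real.one_le_exp (div_nonneg (nm_nonneg hK ζ u u') (by positivity))
  rw [Real.exp_add, show (4 * d + 8 : ℝ) = ((4 * d + 8 : ℕ) : ℝ) by push_cast; ring,
    Real.exp_nat_mul, FF, FF, mul_add]
  refine add_le_add ?_ (h2.trans ?_)
  · refine (mul_le_mul (mul_le_mul_of_nonneg_right h3 (by positivity)) h1
      (hh_pos d (mul_pos hσ (hγ u))).le
      (mul_nonneg (mul_nonneg (by positivity) (mt_nonneg u')) (by positivity))).trans_eq ?_
    ring
  · rw [mul_assoc]
    exact le_mul_of_one_le_left (mul_nonneg (by positivity) (TT_nonneg _)) h4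

/-- the constant in the average of one scale -/
noncomputable def c1 (d : ℕ) : ℝ :=
  Real.exp 1 ^ (4 * d + 8) * (Real.exp 1 * (Real.exp 1 * 5 ^ (d + 1)) * 4 ^ (d + 1) * c0 d * 6 +
    (volume (ball (0 : V d × ℝ) 1)).toReal * 27)

theorem c1_nonneg (d : ℕ) : 0 ≤ c1 d := by
  have := c0_nonneg d
  unfold c1; positivity

/-- the average of one scale -/
theorem bavg_FF_le (hd : 1 ≤ d) (hK : 1 ≤ K) (hζ : ‖ζ‖ ≤ 4) (hσ : 0 < σ) (hr : 32 * σ ^ 4 ≤ r)
    (hγ : ∀ u, 0 < γ u) (hc : Continuous γ)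
    (hl : ∀ u u', γ u ≤ Real.exp (dist u u' / r) * γ u') (u : V d × ℝ)
    (hcnt : ∑ c ∈ 𝒞, Real.exp (-(dist u (p c) / r)) ≤
      Real.exp 1 * 5 ^ (d + 1) * (r ^ (d + 1) * (γ u ^ 2) ^ (d + 2))) :
    bavg (fun u' => min 1 (FF K ζ 𝒞 p γ σ u') / σ ^ 4) r u ≤
      c1 d * γ u ^ 4 * (σ * γ u / (1 + σ * γ u) ^ 2) := by
  have hs : 0 < σ ^ 4 := by positivity
  have hr0 : 0 < r := by linarith
  have hK0 : 0 < K := by linarith
  have hy := mul_pos hσ (hγ u)
  have hg := hγ u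
  have he : 1 ≤ Real.exp 1 := Real.one_le_exp zero_le_one
  set E := Real.exp 1 ^ (4 * d + 8) with hE
  have hE0 : 0 ≤ E := by positivity
  set a := (K / σ ^ 2) ^ d * (E * hh d (σ * γ u)) / σ ^ 4 with ha
  have ha0 : 0 ≤ a := by have := hh_pos d hy; positivity
  have hcm : Continuous fun u' => a * mt K ζ 𝒞 p σ u' := continuous_const.mul continuous_mt
  refine (bavg_mono (W' := fun u' => a * mt K ζ 𝒞 p σ u' + E * TT (σ * γ u) / σ ^ 4)
    ((continuous_const.min (continuous_FF hσ hγ hc)).div_const _) (hcm.add continuous_const)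
    hr0.le u fun u' hu' => ?_).trans ?_
  · have h0 : Real.exp (dist u u' / r) ≤ Real.exp 1 :=
      Real.exp_le_exp.2 ((div_le_one hr0).2 (mem_closedBall'.1 hu'))
    have h1 := hh_le d (mul_pos hσ (hγ u')) hy he (by
      rw [mul_left_comm]
      exact mul_le_mul_of_nonneg_left ((hl u u').trans
        (mul_le_mul_of_nonneg_right h0 (hγ u').le)) hσ.le)
    have h2 := TT_le d (mul_pos hσ (hγ u')) hy he (by
      rw [mul_left_comm]
      refine mul_le_mul_of_nonneg_left ((hl u' u).trans ?_) hσ.le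
      rw [dist_comm]
      exact mul_le_mul_of_nonneg_right h0 hg.le)
    rw [ha, div_mul_eq_mul_div, ← add_div]
    refine div_le_div_of_nonneg_right ((min_le_right _ _).trans (add_le_add ?_ h2)) hs.le
    rw [mul_comm _ (mt K ζ 𝒞 p σ u'), ← mul_assoc]
    exact mul_le_mul_of_nonneg_left h1 (mul_nonneg (mt_nonneg u') (by positivity))
  · rw [bavg_add hcm continuous_const, bavg_const _ hr0, bavg_const_mul]
    have h1 : bavg (mt K ζ 𝒞 p σ) r u ≤ Real.exp 1 * (Real.exp 1 * 5 ^ (d + 1)) *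
        (γ u ^ 2) ^ (d + 2) * ((4 * σ ^ 4 / K) ^ d * (4 * σ ^ 4) * c0 d) := by
      rw [bavg, div_le_iff₀ (by positivity)]
      unfold mt
      rw [integral_finsetSum _ fun c _ => (integral_nm hK (by positivity) hζ (p c)).1.integrableOn]
      refine (Finset.sum_le_sum fun c _ => setIntegral_nm_le hK hs hr hζ u (p c)).trans ?_
      rw [← Finset.sum_mul, ← Finset.mul_sum]
      have := c0_nonneg d
      refine (mul_le_mul_of_nonneg_right (mul_le_mul_of_nonneg_left hcnt (by positivity))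
        (by positivity)).trans_eq ?_
      ring
    have h2 : a * (Real.exp 1 * (Real.exp 1 * 5 ^ (d + 1)) *
        (γ u ^ 2) ^ (d + 2) * ((4 * σ ^ 4 / K) ^ d * (4 * σ ^ 4) * c0 d)) =
        E * (Real.exp 1 * (Real.exp 1 * 5 ^ (d + 1)) * 4 ^ (d + 1) * c0 d) * γ u ^ 4 *
          (((σ * γ u) ^ 2) ^ d * hh d (σ * γ u)) := by
      have e : (K / σ ^ 2) ^ d * (γ u ^ 2) ^ d * (4 * σ ^ 4 / K) ^ d =
          4 ^ d * ((σ * γ u) ^ 2) ^ d := by
        rw [← mul_pow, ← mul_pow, ← mul_pow]; congr 1; field_simp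
      rw [ha, pow_add (γ u ^ 2) d 2, pow_succ 4 d]
      field_simp
      linear_combination (E * c0 d * hh d (σ * γ u)) * e
    have h3 := mul_le_mul_of_nonneg_left (pow_hh_le hd hy) (show 0 ≤
      E * (Real.exp 1 * (Real.exp 1 * 5 ^ (d + 1)) * 4 ^ (d + 1) * c0 d) * γ u ^ 4 by
        have := c0_nonneg d; positivity)
    have h4 : E * TT (σ * γ u) / σ ^ 4 ≤ E * (γ u ^ 4 * (27 * (σ * γ u / (1 + σ * γ u) ^ 2))) := by
      rw [mul_div_assoc]
      refine mul_le_mul_of_nonneg_left ?_ hE0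
      rw [div_le_iff₀ hs]
      refine (TT_div_le hy).trans_eq ?_
      ring
    have h5 := mul_le_mul_of_nonneg_left h4
      (ENNReal.toReal_nonneg (a := volume (ball (0 : V d × ℝ) 1)))
    have h6 := mul_le_mul_of_nonneg_left h1 ha0
    rw [h2] at h6
    rw [c1, ← hE]
    linarith

end Crest.Agent.N76.II.St4
end

-- ▼ part N76/II/St4/Stop

/-! # Row 76 (S0101), leaf `Stop` (helper6). -/

set_option autoImplicit false

open MeasureTheory Set Metric
open scoped ENNReal RealInnerProductSpace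

namespace Crest.Agent.N76.II

open Crest.Agent.N76.Red (V ph)
open Crest.Agent.N76.G

namespace St4

variable {d : ℕ}

theorem bavg_sum {W : ℕ → V d × ℝ → ℝ} (hW : ∀ j, Continuous (W j)) (r : ℝ) (u : V d × ℝ)
    (s : Finset ℕ) : bavg (fun u' => ∑ j ∈ s, W j u') r u = ∑ j ∈ s, bavg (W j) r u := by
  unfold bavg
  rw [integral_finsetSum _ fun j _ =>
    (hW j).continuousOn.integrableOn_compact (isCompact_closedBall u r), Finset.sum_div]

theorem exists_shell {a τ : ℝ} (h : a < τ) (n : ℕ) (h' : τ ≤ a * 2 ^ n) :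
    ∃ i < n, a * 2 ^ i ≤ τ ∧ τ ≤ 2 * (a * 2 ^ i) := by
  induction n with
  | zero => simp at h'; linarith
  | succ n ih =>
    rcases le_total τ (a * 2 ^ n) with h1 | h1
    · obtain ⟨i, hi, h2⟩ := ih h1
      exact ⟨i, by omega, h2⟩
    · exact ⟨n, by omega, h1, by rw [pow_succ] at h'; linarith⟩

theorem exists_root4 {x : ℝ} (hx : 0 < x) : 0 < √√x ∧ √√x ^ 4 = x := by
  refine ⟨by positivity, ?_⟩
  rw [show 4 = 2 * 2 from rfl, pow_mul, Real.sq_sqrt (Real.sqrt_nonneg _), Real.sq_sqrt hx.le]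

open Classical in
/-- the abstract form: `g` is the inverse local scale -/
theorem core (hd : 1 ≤ d) : ∃ C : ℝ, 0 ≤ C ∧ ∀ (ι : Type) (𝒞 : Finset ι) (p : ι → V d × ℝ)
    (K a b r : ℝ) (ζ : V d) (g : V d × ℝ → ℝ), 1 ≤ K → ‖ζ‖ ≤ 4 → K ^ 2 ≤ a → a ≤ b →
    (64 * d + 128) * b ≤ r → Continuous g → (∀ u, 1 / b ≤ g u) →
    (∀ u u', g u ≤ Real.exp (dist u u' / r) * g u') →
    (∀ u (y : ℝ), 0 < y → y ^ 2 = g u → ∑ c ∈ 𝒞, Real.exp (-(dist u (p c) / r)) ≤
      Real.exp 1 * 5 ^ (d + 1) * (r ^ (d + 1) * y ^ (d + 2))) →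
    ∃ (J : ℕ) (js : ι → ℕ) (Ω : ℕ → V d × ℝ → ℝ),
      a * 2 ^ J ≤ b ∧ (∀ c ∈ 𝒞, js c ≤ J) ∧
      (∀ c ∈ 𝒞, ∑ c' ∈ 𝒞.filter (fun c' => js c' = js c ∧ 2 * a < |(p c').2 - (p c).2| ∧
          |(p c').2 - (p c).2| ≤ a * 2 ^ js c), Gs K (Real.pi / 4) (p c) (p c') ζ ≤ C) ∧
      (∀ j, Nice (Ω j) 1 (a / (10 * K))) ∧
      (∀ c ∈ 𝒞, ∀ u, Real.exp (-(K * ‖(lin u ζ - lin (p c) ζ).1‖ + |u.2 - (p c).2|) /
          (a * 2 ^ js c)) ≤ Ω (js c) u) ∧
      ∀ u, bavg (fun u' => ∑ j ∈ Finset.range (J + 1), Ω j u' / (a * 2 ^ j)) r u ≤ C * g u := by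
  obtain ⟨l, hl1, hl4⟩ : ∃ l : ℝ, 1 < l ∧ l ^ 4 = 2 := by
    refine ⟨√√2, ?_, (exists_root4 two_pos).2⟩
    rw [Real.lt_sqrt zero_le_one, Real.lt_sqrt (by norm_num)]
    norm_num
  have hl0 : 0 < l := by linarith
  have hL : 0 ≤ l / (l - 1) := div_nonneg hl0.le (by linarith)
  have hc1 := c1_nonneg d
  refine ⟨(Real.exp 2 * 4 + c1 d) * (l / (l - 1)), by positivity,
    fun ι 𝒞 p K a b r ζ g hK hζ hKa hab hbr hgc hgb hgl hcnt => ?_⟩
  have hK0 : 0 < K := by linarith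
  have ha : 0 < a := lt_of_lt_of_le (by positivity) hKa
  have hb : 0 < b := ha.trans_le hab
  have hd0 : (0 : ℝ) ≤ d := Nat.cast_nonneg d
  have hr : 0 < r := lt_of_lt_of_le (by positivity) hbr
  have hg : ∀ u, 0 < g u := fun u => lt_of_lt_of_le (by positivity) (hgb u)
  obtain ⟨γ, hγ, hγ4, hγc⟩ : ∃ γ : V d × ℝ → ℝ, (∀ u, 0 < γ u) ∧ (∀ u, γ u ^ 4 = g u) ∧
      Continuous γ := ⟨fun u => √√(g u), fun u => (exists_root4 (hg u)).1,
        fun u => (exists_root4 (hg u)).2, hgc.sqrt.sqrt⟩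
  have hγl : ∀ u u', γ u ≤ Real.exp (dist u u' / r) * γ u' := fun u u' => by
    have := hγ u'
    rw [← pow_le_pow_iff_left₀ (hγ u).le (by positivity) (show 4 ≠ 0 by norm_num), mul_pow, hγ4,
      hγ4]
    exact (hgl u u').trans (mul_le_mul_of_nonneg_right
      (le_self_pow₀ (Real.one_le_exp (by positivity)) (by norm_num)) (hg u').le)
  obtain ⟨σ₀, hσ₀, hσ₀4⟩ : ∃ σ₀ : ℝ, 0 < σ₀ ∧ σ₀ ^ 4 = a := ⟨_, exists_root4 ha⟩
  set σ : ℕ → ℝ := fun j => σ₀ * l ^ j with hσdef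
  have hσ : ∀ j, 0 < σ j := fun j => by simp only [hσdef]; positivity
  have hσ4 : ∀ j, σ j ^ 4 = a * 2 ^ j := fun j => by
    simp only [hσdef]; rw [mul_pow, hσ₀4, ← pow_mul, mul_comm j, pow_mul, hl4]
  have hσa : ∀ j, a ≤ σ j ^ 4 := fun j => by
    rw [hσ4]; exact le_mul_of_one_le_right ha.le (one_le_pow₀ one_le_two)
  have htele : ∀ u n, ∑ j ∈ Finset.range n, σ j * γ u / (1 + σ j * γ u) ^ 2 ≤ l / (l - 1) :=
    fun u n => by
      refine le_of_eq_of_le (Finset.sum_congr rfl fun j _ => ?_) (tele hl1 (mul_pos hσ₀ (hγ u)) n)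
      simp only [hσdef, mul_right_comm σ₀]
  obtain ⟨J, hJ1, hJ2⟩ := exists_nat_pow_near ((one_le_div ha).2 hab) one_lt_two
  rw [le_div_iff₀' ha] at hJ1
  rw [div_lt_iff₀' ha, pow_succ] at hJ2
  have hσb : ∀ j ≤ J, σ j ^ 4 ≤ b := fun j hj => by
    rw [hσ4]
    exact (mul_le_mul_of_nonneg_left (pow_le_pow_right₀ one_le_two hj) ha.le).trans hJ1
  have hFJ : ∀ u, 1 ≤ FF K ζ 𝒞 p γ (σ J) u := fun u => by
    refine le_add_of_nonneg_of_le (mul_nonneg (mul_nonneg (mt_nonneg u) (by positivity))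
      (hh_pos d (mul_pos (hσ J) (hγ u))).le) (one_le_TT ?_)
    rw [mul_pow, hσ4, hγ4]
    refine le_trans ?_ (mul_le_mul_of_nonneg_left (hgb u) (by positivity))
    rw [mul_one_div, div_le_div_iff₀ two_pos hb]
    linarith
  have hex : ∀ c, ∃ j, 1 ≤ FF K ζ 𝒞 p γ (σ j) (p c) := fun c => ⟨J, hFJ _⟩
  have hF0 := fun j => FF_nonneg (ζ := ζ) (𝒞 := 𝒞) (p := p) hK0.le (hσ j) hγ
  have hFl := fun j => FF_lip (ζ := ζ) (𝒞 := 𝒞) (p := p) hK0.le (hσ j) hr hγ hγl
  have hΩc : ∀ j, Continuous fun u => min 1 (FF K ζ 𝒞 p γ (σ j) u) := fun j =>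
    continuous_const.min (continuous_FF (hσ j) hγ hγc)
  refine ⟨J, fun c => Nat.find (hex c), fun j u => min 1 (FF K ζ 𝒞 p γ (σ j) u), hJ1,
    fun c _ => Nat.find_min' _ (hFJ _), fun c _ => ?_, fun j => ⟨hΩc j, fun u =>
      ⟨le_min zero_le_one (hF0 j u), min_le_left _ _⟩, fun u u' => ?_⟩, fun c _ u => ?_,
    fun u => ?_⟩
  · calc _ ≤ ∑ c' ∈ 𝒞, ∑ i ∈ Finset.range (Nat.find (hex c)), Real.exp 2 *
          (Real.exp (-(nm K ζ (p c) (p c') / (2 * σ i ^ 4))) * (K / σ i ^ 2) ^ d) := by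
          rw [Finset.sum_filter]
          refine Finset.sum_le_sum fun c' _ => ?_
          split_ifs with h
          · obtain ⟨i, hi, h1, h2⟩ := exists_shell (a := a) (by linarith [h.2.1]) _ h.2.2
            rw [← hσ4, abs_sub_comm] at h1 h2
            exact (Gs_le hK0 (hσ i) (hKa.trans (hσa i)) ζ _ _ h1 h2).trans
              (Finset.single_le_sum (f := fun i => Real.exp 2 *
                (Real.exp (-(nm K ζ (p c) (p c') / (2 * σ i ^ 4))) * (K / σ i ^ 2) ^ d))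
                (fun i _ => by positivity) (Finset.mem_range.2 hi))
          · positivity
      _ ≤ ∑ i ∈ Finset.range (Nat.find (hex c)),
          Real.exp 2 * 4 * (σ i * γ (p c) / (1 + σ i * γ (p c)) ^ 2) := by
          rw [Finset.sum_comm]
          refine Finset.sum_le_sum fun i hi => ?_
          rw [← Finset.mul_sum, ← Finset.sum_mul, mul_assoc]
          refine mul_le_mul_of_nonneg_left ?_ (Real.exp_pos _).le
          exact light d (mul_pos (hσ i) (hγ _)) (mul_nonneg (mt_nonneg _) (by positivity))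
            (not_le.1 (Nat.find_min (hex c) (Finset.mem_range.1 hi)))
      _ ≤ _ := by
          rw [← Finset.mul_sum]
          exact mul_le_mul (by linarith) (htele _ _) (Finset.sum_nonneg fun i _ => by
            have := mul_pos (hσ i) (hγ (p c)); positivity) (by positivity)
  · have he : 1 ≤ Real.exp (dist u u' / (a / (10 * K))) := Real.one_le_exp (by positivity)
    rw [mul_min_of_nonneg _ _ (by positivity), mul_one]
    refine min_le_min he ((hFl j u u').trans (mul_le_mul_of_nonneg_right ?_ (hF0 j u')))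
    rw [Real.exp_le_exp, div_div_eq_mul_div]
    have h1 : nm K ζ u u' / (2 * σ j ^ 4) ≤ dist u u' * (5 * K) / a := by
      refine (div_le_div₀ (by positivity) (nm_le_dist hK hζ u u') (by positivity)
        (mul_le_mul_of_nonneg_left (hσa j) zero_le_two)).trans_eq ?_
      field_simp; ring
    have h2 : (4 * d + 8) * (dist u u' / r) ≤ dist u u' * (5 * K) / a := by
      rw [← mul_div_assoc, mul_comm, mul_div_assoc, mul_div_assoc]
      refine mul_le_mul_of_nonneg_left ?_ dist_nonneg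
      rw [div_le_div_iff₀ hr ha]
      nlinarith [mul_le_mul_of_nonneg_left hab hd0, mul_nonneg hd0 hb.le]
    linarith [show dist u u' * (10 * K) / a = 2 * (dist u u' * (5 * K) / a) by ring]
  · have hj : Nat.find (hex c) ≤ J := Nat.find_min' _ (hFJ _)
    have h0 := Nat.find_spec (hex c)
    beta_reduce
    generalize Nat.find (hex c) = j at hj h0
    change Real.exp (-nm K ζ u (p c) / (a * 2 ^ j)) ≤ _
    rw [← hσ4, nm_comm, neg_div]
    have hs : 0 < σ j ^ 4 := pow_pos (hσ j) 4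
    have hn := nm_nonneg hK0.le ζ (p c) u
    refine le_min (Real.exp_le_one_iff.2 (neg_nonpos.2 (by positivity))) ?_
    rw [Real.exp_neg, inv_le_iff_one_le_mul₀' (Real.exp_pos _)]
    refine h0.trans ((hFl j (p c) u).trans (mul_le_mul_of_nonneg_right ?_ (hF0 j u)))
    rw [Real.exp_le_exp]
    have h2 : (4 * d + 8) * (dist (p c) u / r) ≤ nm K ζ (p c) u / (2 * σ j ^ 4) := by
      rw [← mul_div_assoc, div_le_div_iff₀ hr (by positivity)]
      have h3 := mul_le_mul (dist_le_nm hK hζ (p c) u) (hσb j hj) hs.le (by positivity)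
      have h4 := mul_le_mul_of_nonneg_left h3 (show (0 : ℝ) ≤ 8 * d + 16 by positivity)
      have h5 := mul_le_mul_of_nonneg_left hbr hn
      linarith
    linarith [show nm K ζ (p c) u / σ j ^ 4 = 2 * (nm K ζ (p c) u / (2 * σ j ^ 4)) by field_simp]
  · simp only [← hσ4]
    rw [bavg_sum fun j => (hΩc j).div_const _]
    have hy := hγ u
    refine (Finset.sum_le_sum fun j hj => bavg_FF_le hd hK hζ (hσ j) ?_ hγ hγc hγl u
      (hcnt u _ (by positivity) (by rw [← pow_mul, hγ4]))).trans ?_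
    · have := hσb j (Nat.lt_succ_iff.1 (Finset.mem_range.1 hj))
      nlinarith [mul_nonneg hd0 hb.le]
    · rw [← Finset.mul_sum, hγ4]
      have := hg u
      refine (mul_le_mul_of_nonneg_left (htele _ _) (by positivity)).trans ?_
      rw [mul_right_comm]
      gcongr
      linarith [Real.exp_pos 2]

end St4

/-- **Stop** -/
theorem stop (d : ℕ) (hd : 1 ≤ d) : Stop d := by
  obtain ⟨C, hC, H⟩ := St4.core hd
  refine ⟨C, 64 * d + 128, hC,
    fun R B K N hR hB hK hKB hN hNB ι X p w hreg 𝒞 hms hsep ζ hζ rlo hrlo => ?_⟩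
  have hS := one_le_Ssc hR (d + 1)
  have hd0 : (0 : ℝ) ≤ d := Nat.cast_nonneg d
  have hB1 : 1 ≤ B := by linarith
  have hN0 : 0 < N := lt_of_lt_of_le (by positivity) hN
  generalize Ssc (d + 1) R = S at *
  have hq := gam_exp_pos d
  have hNq : 0 < N ^ (2 / ((d : ℝ) + 2)) := by positivity
  have hr : 0 < S ^ 2 * B ^ 3 := by positivity
  have hK2 : K ^ 2 ≤ rlo := by rwa [hrlo, le_div_iff₀ (by positivity)]
  have hab : rlo ≤ S ^ 2 * B ^ 2 := by
    rw [hrlo]
    exact (div_le_self (by positivity) (one_le_pow₀ hB1)).trans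
      (le_mul_of_one_le_right (by positivity) (one_le_pow₀ hB1))
  have hbr : (64 * d + 128) * (S ^ 2 * B ^ 2) ≤ S ^ 2 * B ^ 3 :=
    (mul_le_mul_of_nonneg_right hB (by positivity)).trans_eq (by ring)
  have hv := fun u => vv_nonneg (p := p) hreg.1 hr u
  obtain ⟨J, js, Ω, h1, h2, h3, h4, h5, h6⟩ := H ι 𝒞 p K rlo (S ^ 2 * B ^ 2) (S ^ 2 * B ^ 3) ζ
    (fun u => vv X p w (S ^ 2 * B ^ 3) u / N ^ (2 / ((d : ℝ) + 2)) + 1 / (S ^ 2 * B ^ 2)) hK hζ hK2
    hab hbr (((continuous_vv _).div_const _).add continuous_const)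
    (fun u => le_add_of_nonneg_left (div_nonneg (hv u) hNq.le))
    (fun u u' => by
      rw [mul_add, ← mul_div_assoc]
      exact add_le_add (div_le_div_of_nonneg_right (vv_lip hreg.1 hr u u') hNq.le)
        (le_mul_of_one_le_left (by positivity) (Real.one_le_exp (by positivity))))
    (fun u y hy hy2 => by
      have hKr : K ≤ S ^ 2 * B ^ 3 := by
        have : 0 < S ^ 2 * B ^ 2 := by positivity
        nlinarith [le_self_pow₀ hK two_ne_zero, mul_nonneg hd0 this.le]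
      have hc := St4.count_le hreg.1 (by linarith) hKr hms hsep u
      have hm := dens_nonneg (p := p) hreg.1 hr u
      have h7 : dens X p w (S ^ 2 * B ^ 3) u / N ≤ y ^ (d + 2) := by
        rw [← Real.rpow_le_rpow_iff (by positivity) (by positivity) hq, Real.div_rpow hm hN0.le,
          ← Real.rpow_natCast y, ← Real.rpow_mul hy.le,
          show ((d + 2 : ℕ) : ℝ) * (2 / ((d : ℝ) + 2)) = (2 : ℕ) by push_cast; field_simp,
          Real.rpow_natCast, hy2]
        exact le_add_of_nonneg_right (by positivity)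
      rw [div_le_iff₀' hN0] at h7
      refine le_of_mul_le_mul_left (hc.trans ?_) hN0
      refine (mul_le_mul_of_nonneg_left (mul_le_mul_of_nonneg_left h7 (by positivity))
        (by positivity)).trans_eq ?_
      ring)
  refine ⟨J, js, Ω, h1, h2, h3, h4, h5, fun u => ?_⟩
  refine (mul_le_mul_of_nonneg_left (h6 u) hNq.le).trans ?_
  rw [mul_left_comm, mul_add, mul_div_cancel₀ _ hNq.ne']
  refine mul_le_mul_of_nonneg_left (add_le_add le_rfl ?_) hC
  have h8 : N ^ (2 / ((d : ℝ) + 2)) ≤ B :=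
    (Real.rpow_le_rpow hN0.le hNB hq.le).trans (Real.rpow_le_self_of_one_le hB1 (gam_exp_le_one d))
  refine (mul_le_mul_of_nonneg_right h8 (by positivity)).trans_eq ?_
  field_simp

end Crest.Agent.N76.II
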